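import Vale.Agent.Lib.P346.Sharp

/-!
Every circuit with layers `+, ×, +, ×, +` over the field with two elements that computes `IMM_{n,n}`
has at least `2 ^ (⌊√n⌋ / 200)` gates. No homogeneity is needed.
-/

namespace Vale.Agent.Results.P346.A_sqrt

open Vale.Agent.Lib.P346

/-- Over `ZMod 2`, every circuit with five layers `+, ×, +, ×, +` computing `IMM_{n,n}` as a formal
polynomial has at least `2 ^ (⌊√n⌋ / 200)` gates. -/
theorem result (n : ℕ) [NeZero n] (C : Circuit (ZMod 2) (ImmVar n))
    (hC : C.output = imm (ZMod 2) n) :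
    2 ^ (Nat.sqrt n / 200) ≤ C.size :=
  sharp_bound n C hC

end Vale.Agent.Results.P346.A_sqrt
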