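import Vale.Agent.Results.P346.A_fq
import Vale.Agent.Results.P346.A_sqrt

namespace Vale.Agent.Results.P346.A00_master

open Vale.Agent.Lib.P346

/-- The statement of part 1. -/
def part1 : Prop :=
  ∀ (K : Type) [Field K] [Fintype K] (n : ℕ) [NeZero n] (C : Circuit K (ImmVar n))
      (hH : C.IsSynHom) (hC : C.output = imm K n),
    2 ^ (Nat.sqrt n / (10 ^ 8 * Fintype.card K ^ 3)) ≤ C.size

/-- The statement of part 2. -/
def part2 : Prop :=
  ∀ (n : ℕ) [NeZero n] (C : Circuit (ZMod 2) (ImmVar n))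
      (hC : C.output = imm (ZMod 2) n),
    2 ^ (Nat.sqrt n / 200) ≤ C.size

theorem result : part1 ∧ part2 :=
  ⟨@Vale.Agent.Results.P346.A_fq.result, @Vale.Agent.Results.P346.A_sqrt.result⟩

end Vale.Agent.Results.P346.A00_master
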