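import Vale.Agent.Lib.P346.Fq.FinalQ

/-!
Over every finite field, every syntactically homogeneous circuit with layers `+, ×, +, ×, +` that computes
`IMM_{n,n}` has at least `2 ^ (⌊√n⌋ / (10 ^ 8 * q ^ 3))` gates, where `q` is the size of the field.
-/

namespace Vale.Agent.Results.P346.A_fq

open Vale.Agent.Lib.P346

/-- Over a finite field `K` with `q` elements, every syntactically homogeneous circuit with five layers
`+, ×, +, ×, +` computing `IMM_{n,n}` as a formal polynomial has at least
`2 ^ (⌊√n⌋ / (10 ^ 8 * q ^ 3))` gates. -/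
theorem result (K : Type) [Field K] [Fintype K] (n : ℕ) [NeZero n] (C : Circuit K (ImmVar n))
    (hH : C.IsSynHom) (hC : C.output = imm K n) :
    2 ^ (Nat.sqrt n / (10 ^ 8 * Fintype.card K ^ 3)) ≤ C.size :=
  Fq.size_bound_hom C hH hC

end Vale.Agent.Results.P346.A_fq
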